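import Mathlib
import Vale.Agent.P072.Defs
import Vale.Agent.P072.Permanent

/-!
The permanence conjecture for weakly reversible mass-action systems.
-/

namespace Vale.Agent.Results.P072.Permanence

open Vale.Agent.P072

theorem result :
    ∀ d : ℕ, 1 ≤ d → ∀ rxn : Finset (Reaction d), (∀ r ∈ rxn, r.1 ≠ r.2) →
      WeaklyReversible rxn → ∀ k : Reaction d → ℝ, (∀ r ∈ rxn, 0 < k r) →
      ∀ c : Fin d → ℝ, (∀ i, 0 < c i) →
      ∃ K : Set (Fin d → ℝ), IsCompact K ∧ K ⊆ posClass rxn c ∧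
        ∀ x₀ ∈ posClass rxn c, ∃ x : ℝ → Fin d → ℝ, x 0 = x₀ ∧
          (∀ t, 0 ≤ t → x t ∈ posClass rxn c ∧
            HasDerivWithinAt x (massAction rxn k (x t)) (Set.Ici 0) t) ∧
          (∀ T : ℝ, ∀ y : ℝ → Fin d → ℝ, y 0 = x₀ →
            (∀ t ∈ Set.Icc 0 T,
              HasDerivWithinAt y (massAction rxn k (y t)) (Set.Icc 0 T) t) →
            Set.EqOn y x (Set.Icc 0 T)) ∧
          ∃ T : ℝ, ∀ t, T ≤ t → x t ∈ K :=
  fun _ _ rxn _ hwr k hk c _ => permanence rxn hwr k hk c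

end Vale.Agent.Results.P072.Permanence
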